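import Vale.Agent.P154.Neg.Level

/-!
# P154: admissible functionals `mass * G (S)` of the normalised second moment

`sNorm x` is the normalised second moment of the posterior `x / mass x`; for a `Good` channel
`∑ o, mG G (L o)` is the expectation of `G` at it.
-/

namespace Vale.Agent.P154.Neg

open Finset

/-- Normalised second moment of the posterior. -/
noncomputable def sNorm (x : Fin 3 → ℝ) : ℝ := 3 * sX x / mass x

/-- Expected value of `G` at the normalised second moment, as a functional of one atom. -/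
noncomputable def mG (G : ℝ → ℝ) (x : Fin 3 → ℝ) : ℝ := mass x / 3 * G (sNorm x)

lemma sNorm_mem {x : Fin 3 → ℝ} (hx : ∀ i, 0 ≤ x i) : 0 ≤ sNorm x ∧ sNorm x ≤ 1 := by
  refine ⟨div_nonneg (mul_nonneg (by norm_num) (adm_sX.nonneg x hx)) (mass_nonneg hx), ?_⟩
  refine div_le_one_of_le₀ ?_ (mass_nonneg hx)
  have := q2_nonneg hx
  simp only [sX]; linarith

lemma sX_eq_mass_mul {x : Fin 3 → ℝ} (hx : ∀ i, 0 ≤ x i) :
    sX x = mass x / 3 * sNorm x := by
  rcases (mass_nonneg hx).eq_or_lt with h | h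
  · have hx0 := eq_zero_of_mass hx h.symm
    simp [sX, q2, esy2, mass, hx0]
  · rw [sNorm]; field_simp

lemma sNorm_smul {c : ℝ} (hc : 0 < c) (x : Fin 3 → ℝ) :
    sNorm (fun i => c * x i) = sNorm x := by
  simp only [sNorm, sX, q2_smul, mass_smul]
  rw [show 3 * (c * mass x / 3 - c * q2 x) = c * (3 * (mass x / 3 - q2 x)) by ring,
    mul_div_mul_left _ _ hc.ne']

theorem adm_mG {G : ℝ → ℝ} (hc : ConvexOn ℝ (Set.Icc 0 1) G)
    (hm : MonotoneOn G (Set.Icc 0 1)) (h0 : 0 ≤ G 0) : Adm (mG G) where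
  nonneg x hx := mul_nonneg (div_nonneg (mass_nonneg hx) (by norm_num))
    (h0.trans (hm ⟨le_rfl, zero_le_one⟩ (sNorm_mem hx) (sNorm_mem hx).1))
  smul c x hc' hx := by
    rcases hc'.eq_or_lt with h | h
    · simp [← h, mG, mass]
    · rw [mG, mG, sNorm_smul h, mass_smul]; ring
  add_le x y hx hy := by
    rcases (mass_nonneg hx).eq_or_lt with h | hs
    · have hx0 := eq_zero_of_mass hx h.symm
      simp [mG, ← h, hx0]
    rcases (mass_nonneg hy).eq_or_lt with h | ht
    · have hy0 := eq_zero_of_mass hy h.symm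
      simp [mG, ← h, hy0]
    have hxy : ∀ i, 0 ≤ x i + y i := fun i => add_nonneg (hx i) (hy i)
    have hm' : mass (fun i => x i + y i) = mass x + mass y := by simp only [mass]; ring
    set a := mass x / (mass x + mass y)
    set b := mass y / (mass x + mass y)
    have ha : 0 ≤ a := by positivity
    have hb : 0 ≤ b := by positivity
    have hab : a + b = 1 := by simp only [a, b, ← add_div]; exact div_self (by linarith)
    have hS : sNorm (fun i => x i + y i) ≤ a * sNorm x + b * sNorm y := by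
      have e := adm_sX.add_le x y hx hy
      have : a * sNorm x + b * sNorm y = 3 * (sX x + sX y) / (mass x + mass y) := by
        simp only [a, b, sNorm]; field_simp
      rw [this, sNorm, hm']
      exact div_le_div_of_nonneg_right (by linarith) (by linarith)
    have hmem : a * sNorm x + b * sNorm y ∈ Set.Icc (0 : ℝ) 1 :=
      hc.1 (sNorm_mem hx) (sNorm_mem hy) ha hb hab
    have hG : G (sNorm (fun i => x i + y i)) ≤ a * G (sNorm x) + b * G (sNorm y) :=
      (hm (sNorm_mem hxy) hmem hS).trans (hc.2 (sNorm_mem hx) (sNorm_mem hy) ha hb hab)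
    refine (mul_le_mul_of_nonneg_left hG (div_nonneg (mass_nonneg hxy) (by norm_num))).trans
      (le_of_eq ?_)
    simp only [mG, hm', a, b]; field_simp

lemma adm_mG_pow (k : ℕ) : Adm (mG (fun s => s ^ k)) :=
  adm_mG ((convexOn_pow k).subset (fun _ h => h.1) (convex_Icc 0 1))
    (fun _ ha _ _ hab => pow_le_pow_left₀ ha.1 hab k) (pow_nonneg le_rfl k)

lemma adm_mG_sat {τ : ℝ} (hτ : 0 < τ) : Adm (mG (fun s => s ^ 2 / (τ + s))) := by
  refine adm_mG ⟨convex_Icc 0 1, ?_⟩ ?_ (by simp)
  · intro s hs t ht a b ha hb hab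
    simp only [smul_eq_mul]
    have hs' : 0 < τ + s := by linarith [hs.1]
    have ht' : 0 < τ + t := by linarith [ht.1]
    have hst : 0 < τ + (a * s + b * t) := by nlinarith [mul_nonneg ha hs.1, mul_nonneg hb ht.1]
    rw [← mul_div_assoc, ← mul_div_assoc, div_add_div _ _ hs'.ne' ht'.ne',
      div_le_div_iff₀ hst (mul_pos hs' ht')]
    obtain rfl : b = 1 - a := by linarith
    nlinarith [mul_nonneg (mul_nonneg ha hb) (sq_nonneg (τ * (s - t)))]
  · intro s hs t ht hst
    have hs' : 0 < τ + s := by linarith [hs.1]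
    rw [div_le_div_iff₀ hs' (by linarith [ht.1])]
    nlinarith [mul_nonneg (mul_nonneg hs.1 (sub_nonneg.2 hst)) (by linarith [ht.1] : (0:ℝ) ≤ t),
      mul_nonneg (mul_nonneg hτ.le (sub_nonneg.2 hst)) (add_nonneg hs.1 ht.1)]

lemma sym6_mG (G : ℝ → ℝ) (x : Fin 3 → ℝ) : sym6 (mG G) x = mG G x := by
  have h : ∀ p : Equiv.Perm (Fin 3), mG G (fun i => x (p i)) = mG G x := by
    intro p
    have e : sX (fun i => x (p i)) = sX x := by
      simp only [sX, q2, mass_perm]
      congr 2
      have e : ∀ y : Fin 3 → ℝ, esy2 y = ((∑ i, y i) ^ 2 - ∑ i, y i ^ 2) / 2 := by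
        intro y; simp only [esy2, Fin.sum_univ_three]; ring
      rw [e, e, Equiv.sum_comp p x, Equiv.sum_comp p (fun i => x i ^ 2)]
    simp only [mG, sNorm, mass_perm, e]
  simp [sym6, h, Fintype.card_perm, Nat.factorial]

/-- The second moment is controlled linearly by the expectation of its square. -/
theorem chX_le_sq {A : Type} [Fintype A] {L : A → Fin 3 → ℝ} (hL : Good L) {η : ℝ} (hη : 0 < η) :
    chX L ≤ η + (∑ o, mG (fun s => s ^ 2) (L o)) / (4 * η) := by
  rw [← sum_sX hL, Finset.sum_div]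
  have hη3 : η = ∑ o, mass (L o) / 3 * η := by
    rw [← Finset.sum_mul, ← Finset.sum_div, hL.sum_mass]; norm_num
  conv_rhs => rw [hη3]
  rw [← Finset.sum_add_distrib]
  refine Finset.sum_le_sum fun o _ => ?_
  rw [← hη3, sX_eq_mass_mul (hL.nonneg o), mG, mul_div_assoc, ← mul_add]
  refine mul_le_mul_of_nonneg_left ?_ (div_nonneg (mass_nonneg (hL.nonneg o)) (by norm_num))
  have : 0 ≤ (sNorm (L o) - 2 * η) ^ 2 / (4 * η) := by positivity
  have e : (sNorm (L o) - 2 * η) ^ 2 / (4 * η) = sNorm (L o) ^ 2 / (4 * η) - sNorm (L o) + η := by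
    field_simp; ring
  linarith

/-- If the expected square of the normalised second moment vanishes, so does the second moment. -/
theorem tendsto_of_sq {m e : ℕ → ℝ} (hm : ∀ n, 0 ≤ m n)
    (h : ∀ n, ∀ η : ℝ, 0 < η → m n ≤ η + e n / (4 * η))
    (he : Filter.Tendsto e Filter.atTop (nhds 0)) : Filter.Tendsto m Filter.atTop (nhds 0) := by
  rw [Metric.tendsto_atTop]
  intro ε hε
  obtain ⟨N, hN⟩ := Metric.tendsto_atTop.1 he (ε ^ 2 / 2) (by positivity)
  refine ⟨N, fun n hn => ?_⟩
  have h1 := h n (ε / 2) (by linarith)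
  have h2 := hN n hn
  rw [Real.dist_eq, sub_zero] at h2
  have h3 : e n / (4 * (ε / 2)) < ε / 2 := by
    rw [div_lt_iff₀ (by positivity)]
    nlinarith [le_abs_self (e n)]
  rw [Real.dist_eq, sub_zero, abs_of_nonneg (hm n)]
  linarith

end Vale.Agent.P154.Neg
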